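/-
R335/OD/Main: block OD (see R335/Notes)
Skeleton by helper48 (row 335); proof by helper15.
-/
import Crest.Agent.R335.RT.Main
import Crest.Agent.R335.Assemble

set_option autoImplicit false
set_option linter.unusedSectionVars false
set_option linter.unusedVariables false
set_option linter.unusedSimpArgs false

noncomputable section

namespace Crest.Agent.R335

open MeasureTheory Set Filter Topology Metric
open scoped ENNReal

variable {δ M : ℝ} {P b R : X → ℝ}

theorem od_J_rf (h : Cert δ P b R) (i : Fin 3) :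
    ∀ᵐ x : X, J P b i (rf x) = -((if i = 2 then -1 else 1) * J P b i x) := by
  have h1 := wd_rf h.hP.hl i
  have h2 := wd_rf h.hb.hl i
  simp only [h.P_even] at h1
  simp only [h.b_odd] at h2
  filter_upwards [h1, h2, h.hb.hl.wd_neg i] with x a1 a2 a3
  rw [a3] at a2
  simp only [J, h.P_even, h.b_odd, a1, neg_eq_iff_eq_neg.1 a2]
  split_ifs <;> ring

/-- The Euler-Lagrange equation holds for all bounded `H¹` functions. -/
theorem od_el (h : Cert δ P b R) (hM : ∀ᵐ x : X, |R x| ≤ M) {φ : X → ℝ} (hφ : H1 eX φ) {k : ℝ}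
    (hk : ∀ᵐ x : X, |φ x| ≤ k) :
    (∫ x, ∑ i, J P b i x * wd (eX i) φ x) + 2 * δ * ∫ x, P x * b x * φ x = 0 := by
  obtain ⟨-, -, hb, hJ⟩ := h.lh hM
  have hφ' := sym_rf.h1 hφ
  have h1 := h.el _ (hφ.sub hφ') ⟨k + k, by
    filter_upwards [hk, sym_rf.ae hk] with x a1 a2 using (abs_sub _ _).trans (add_le_add a1 a2)⟩
    (.of_forall fun x => by simp only [rf_rf, neg_sub])
  have i1 : Integrable fun x => ∑ i, J P b i x * wd (eX i) φ x :=
    integrable_finsetSum _ fun i _ => (hJ i).integrable_mul (hφ.2 i).2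
  have i2 : Integrable fun x => P x * b x * φ x := by
    have : Integrable fun x => P x * b x := h.hP.1.integrable_mul h.hb.1
    exact this.mul_bdd hφ.1.1 hk
  have e1 : ∫ x, ∑ i, J P b i x * wd (eX i) (fun x => φ x - φ (rf x)) x =
      ∫ x, (∑ i, J P b i x * wd (eX i) φ x + ∑ i, J P b i (rf x) * wd (eX i) φ (rf x)) := by
    refine integral_congr_ae ?_
    filter_upwards [ae_all_iff.2 fun i => hφ.hl.wd_sub hφ'.hl i,
      ae_all_iff.2 fun i => wd_rf hφ.hl i, ae_all_iff.2 (od_J_rf h)] with x a1 a2 a3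
    simp only [a1, a2, a3, ← Finset.sum_add_distrib]
    exact Finset.sum_congr rfl fun i _ => by ring
  have e2 : ∫ x, P x * b x * (φ x - φ (rf x)) =
      ∫ x, (P x * b x * φ x + P (rf x) * b (rf x) * φ (rf x)) :=
    integral_congr_ae (.of_forall fun x => by simp only [h.P_even, h.b_odd]; ring)
  rw [e1, e2, integral_add i1 (sym_rf.integrable.2 i1), integral_add i2 (sym_rf.integrable.2 i2),
    sym_rf.integral fun x => ∑ i, J P b i x * wd (eX i) φ x,
    sym_rf.integral fun x => P x * b x * φ x] at h1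
  linarith

theorem od_inv {w : X → ℝ} (hw : LH eX w) (hp : LocPos w) : LH eX fun x => (w x)⁻¹ := by
  simpa only [one_div] using ((LH.const 1).div hw hp).1

/-- Testing the equation with `ζ² u / w`. -/
theorem od_key (h : Cert δ P b R) (hM : ∀ᵐ x : X, |R x| ≤ M) {u w ζ : X → ℝ} (hu : LH eX u)
    (hw : LH eX w) (hp : LocPos w) (hζ : LT eX ζ) {σ : ℝ} (hσ : σ ^ 2 = 1)
    (hJ : ∀ i, ∀ᵐ x : X, ζ x ≠ 0 → wd (eX i) u x * w x - u x * wd (eX i) w x = σ * J P b i x)
    {t : ℝ} (ht : 0 < t) : (Integrable fun x => ζ x ^ 2 * ∑ i, (J P b i x / w x) ^ 2) ∧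
      (1 - t) * (∫ x, ζ x ^ 2 * ∑ i, (J P b i x / w x) ^ 2) +
        σ * (2 * δ * ∫ x, P x * b x * (u x / w x * ζ x ^ 2)) ≤
          1 / t * ∫ x, u x ^ 2 * dot eX ζ ζ x := by
  obtain ⟨-, -, hb, hJ2⟩ := h.lh hM
  obtain ⟨h1, h2⟩ := hu.div hw hp
  have hζ2 : LT eX fun x => ζ x ^ 2 := by simpa only [pow_two] using hζ.1.mul_LT hζ
  have hφ := h1.mul_LT hζ2
  obtain ⟨k, hk⟩ := hφ.bdd
  have el := od_el h hM hφ.h1 hk
  have hi := od_inv hw hp
  have l1 : ∀ i, LocL2 fun x => J P b i x / w x := fun i => by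
    simpa only [div_eq_inv_mul] using (LocL2.of_memLp (hJ2 i)).mul_locBdd hi.1.1.aesm hi.2
  have i1 : Integrable fun x => ζ x ^ 2 * ∑ i, (J P b i x / w x) ^ 2 := by
    simp only [Finset.mul_sum]
    refine integrable_finsetSum _ fun i _ => ?_
    simpa only [← pow_two, mul_comm] using hζ2.integrable_mul (l1 i) (l1 i)
  have i2 : Integrable fun x => u x ^ 2 * dot eX ζ ζ x :=
    hζ.1.1.integrable_mul_dot hu.sq.1.1.1.aesm hu.sq.1.2 hζ
  have i3 : Integrable fun x => ∑ i, J P b i x * wd (eX i) (fun x => u x / w x * ζ x ^ 2) x :=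
    integrable_finsetSum _ fun i _ => (hJ2 i).integrable_mul (hφ.h1.2 i).2
  refine ⟨i1, ?_⟩
  have h3 : ∫ x, (1 - t) * (ζ x ^ 2 * ∑ i, (J P b i x / w x) ^ 2) ≤
      ∫ x, (σ * ∑ i, J P b i x * wd (eX i) (fun x => u x / w x * ζ x ^ 2) x +
        1 / t * (u x ^ 2 * dot eX ζ ζ x)) := by
    refine integral_mono_ae (i1.const_mul _) ((i3.const_mul _).add (i2.const_mul _)) ?_
    filter_upwards [ae_all_iff.2 (h1.wd_mul hζ2.1), ae_all_iff.2 h2, ae_all_iff.2 hζ.1.sq.2,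
      ae_all_iff.2 hJ, hp.ae_pos] with x a1 a2 a3 a4 a5
    simp only [a1, a2, a3, dot, Finset.mul_sum, ← Finset.sum_add_distrib]
    refine Finset.sum_le_sum fun i _ => ?_
    by_cases hz : ζ x = 0
    · simp only [hz]
      have : 0 ≤ 1 / t * (u x ^ 2 * (wd (eX i) ζ x * wd (eX i) ζ x)) :=
        mul_nonneg (by positivity) (mul_nonneg (sq_nonneg _) (mul_self_nonneg _))
      simpa using this
    · rw [a4 i hz]
      have e : σ * (J P b i x * (σ * J P b i x / w x ^ 2 * ζ x ^ 2 +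
          u x / w x * (2 * ζ x * wd (eX i) ζ x))) + 1 / t * (u x ^ 2 * (wd (eX i) ζ x * wd (eX i) ζ x)) -
          (1 - t) * (ζ x ^ 2 * (J P b i x / w x) ^ 2) =
          1 / t * (σ * t * ζ x * (J P b i x / w x) + u x * wd (eX i) ζ x) ^ 2 +
            (σ ^ 2 - 1) * ((1 - t) * (ζ x * (J P b i x / w x)) ^ 2) := by
        field_simp
        ring
      rw [hσ, sub_self, zero_mul, add_zero] at e
      have : 0 ≤ 1 / t * (σ * t * ζ x * (J P b i x / w x) + u x * wd (eX i) ζ x) ^ 2 := by positivity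
      linarith
  rw [integral_add (i3.const_mul _) (i2.const_mul _), integral_const_mul, integral_const_mul,
    integral_const_mul, eq_neg_of_add_eq_zero_left el] at h3
  linarith

theorem od_locPos {p q : X → ℝ} (hp : ∀ x, 0 ≤ p x) (hq : ∀ x, 0 ≤ q x)
    (h : LocPos fun x => p x + q x) {ε : ℝ} (hε : 0 < ε) (hε1 : ε ≤ 1) :
    LocPos fun x => p x + ε * q x := fun r => by
  obtain ⟨c, hc, hc'⟩ := h r
  refine ⟨ε * c, mul_pos hε hc, hc'.mono fun x hx hr => ?_⟩
  nlinarith [mul_le_mul_of_nonneg_left (hx hr) hε.le, hp x]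

theorem od_sum (h : Cert δ P b R) (hR : LocPos R) : LocPos fun x => P x + |b x| :=
  hR.mono (h.sq.mono fun x hx => by
    refine (le_abs_self _).trans (abs_le_of_sq_le_sq ?_ (add_nonneg (h.P_nn x) (abs_nonneg _)))
    nlinarith [sq_abs (b x), mul_nonneg (h.P_nn x) (abs_nonneg (b x))])

theorem od_abs (hb : LH eX b) : LH eX fun x => |b x| :=
  ⟨hb.1.abs.1, fun r => by simpa only [abs_abs] using hb.2 r⟩

/-- Test function `ζ² b / (P + ε |b|)`. -/
theorem od_A (h : Cert δ P b R) (hδ : 0 ≤ δ) (hR : LocPos R) (hM : ∀ᵐ x : X, |R x| ≤ M) {ζ : X → ℝ}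
    (hζ : LT eX ζ) (h1 : ∀ x, |ζ x| ≤ 1) {ε : ℝ} (hε : 0 < ε) (hε1 : ε ≤ 1) {t : ℝ} (ht : 0 < t) :
    (Integrable fun x => ζ x ^ 2 * ∑ i, (J P b i x / (P x + ε * |b x|)) ^ 2) ∧
      (1 - t) * (∫ x, ζ x ^ 2 * ∑ i, (J P b i x / (P x + ε * |b x|)) ^ 2) ≤
        2 * δ + 1 / t * ∫ x, b x ^ 2 * dot eX ζ ζ x := by
  obtain ⟨hP, hb, -⟩ := h.lh hM
  have ha := (od_abs hb).const_mul ε
  have hw := od_locPos h.P_nn (fun x => abs_nonneg _) (od_sum h hR) hε hε1
  obtain ⟨h2, h3⟩ := od_key h hM hb (hP.add ha) hw hζ (σ := -1) (by norm_num) (fun i => by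
    filter_upwards [hP.1.wd_add ha.1 i, (od_abs hb).1.wd_const_mul ε i, hb.1.abs.2 i] with x a1 a2 a3 _
    have e : (SignType.sign (b x) : ℝ) * b x = |b x| := sign_mul_self _
    rw [a1, a2, a3, J, ← e]
    ring) ht
  refine ⟨h2, ?_⟩
  have h4 : ∫ x, P x * b x * (b x / (P x + ε * |b x|) * ζ x ^ 2) ≤ 1 := by
    rw [← h.nb]
    refine integral_mono_of_nonneg (hw.ae_pos.mono fun x hx => ?_) (h.hb.1.integrable_mul h.hb.1)
      (hw.ae_pos.mono fun x hx => ?_)
    · have : P x * b x * (b x / (P x + ε * |b x|) * ζ x ^ 2) =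
          P x * (b x * ζ x) ^ 2 / (P x + ε * |b x|) := by ring
      simp only [this, Pi.zero_apply]
      exact div_nonneg (mul_nonneg (h.P_nn x) (sq_nonneg _)) hx.le
    · have : P x * b x * (b x / (P x + ε * |b x|) * ζ x ^ 2) =
          P x / (P x + ε * |b x|) * ζ x ^ 2 * (b x * b x) := by ring
      simp only [this]
      refine mul_le_of_le_one_left (mul_self_nonneg _) (mul_le_one₀ ((div_le_one hx).2 ?_)
        (sq_nonneg _) ((sq_le_one_iff_abs_le_one _).2 (h1 x)))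
      exact le_add_of_nonneg_right (by positivity)
  nlinarith [mul_le_mul_of_nonneg_left h4 hδ]

/-- Test function `ζ² P / (|b| + ε P)` in the upper half space. -/
theorem od_B (h : Cert δ P b R) (hR : LocPos R) (hM : ∀ᵐ x : X, |R x| ≤ M) {ζ : X → ℝ}
    (hζ : LT eX ζ) (h0 : ∀ᵐ x : X, x ∉ Hs → ζ x = 0) {ε : ℝ} (hε : 0 < ε) (hε1 : ε ≤ 1) {t : ℝ}
    (ht : 0 < t) : (Integrable fun x => ζ x ^ 2 * ∑ i, (J P b i x / (|b x| + ε * P x)) ^ 2) ∧
      (1 - t) * (∫ x, ζ x ^ 2 * ∑ i, (J P b i x / (|b x| + ε * P x)) ^ 2) +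
        2 * δ * ∫ x, |b x| / (|b x| + ε * P x) * (P x * ζ x) ^ 2 ≤
          1 / t * ∫ x, P x ^ 2 * dot eX ζ ζ x := by
  obtain ⟨hP, hb, -⟩ := h.lh hM
  have hs : LocPos fun x => |b x| + P x := by simpa only [add_comm] using od_sum h hR
  have hw := od_locPos (fun x => abs_nonneg _) h.P_nn hs hε hε1
  have hab : ∀ᵐ x : X, ζ x ≠ 0 → |b x| = b x := h0.mono fun x hx hz =>
    abs_of_nonneg (h.b_nn x (by_contra fun h' => hz (hx h')))
  obtain ⟨h2, h3⟩ := od_key h hM hP ((od_abs hb).add (hP.const_mul ε)) hw hζ (σ := 1) (by norm_num)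
    (fun i => by
      filter_upwards [(od_abs hb).1.wd_add (hP.const_mul ε).1 i, hP.1.wd_const_mul ε i,
        (od_abs hb).1.wd_eq_of_eq hb.1 i, hab] with x a1 a2 a3 a4 hz
      rw [a1, a2, a3 (a4 hz), a4 hz, J]
      ring) ht
  refine ⟨h2, ?_⟩
  have e : ∫ x, P x * b x * (P x / (|b x| + ε * P x) * ζ x ^ 2) =
      ∫ x, |b x| / (|b x| + ε * P x) * (P x * ζ x) ^ 2 := by
    refine integral_congr_ae (hab.mono fun x hx => ?_)
    by_cases hz : ζ x = 0
    · simp [hz]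
    · simp only [hx hz]
      ring
  rwa [e, one_mul] at h3

/-- A logarithmic estimate gives positivity. -/
theorem od_log {p q : X → ℝ} {G : Fin 3 → X → ℝ} (hp : LH eX p) (hq : LH eX q) (mp : Measurable p)
    (p0 : ∀ x, 0 ≤ p x) (q0 : ∀ x, 0 ≤ q x) (hs : LocPos fun x => p x + q x)
    (hG : ∀ i, ∀ᵐ x : X, (q x * wd (eX i) p x - p x * wd (eX i) q x) ^ 2 = G i x ^ 2)
    {χ : X → ℝ} {x0 : X} {r C : ℝ} (hr : 0 < r) (hχ : ∀ x ∈ ball x0 r, χ x = 1)
    (hC : ∀ ε : ℝ, 0 < ε → ε ≤ 1 → (Integrable fun x => χ x ^ 2 * ∑ i, (G i x / (p x + ε * q x)) ^ 2) ∧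
      ∫ x, χ x ^ 2 * ∑ i, (G i x / (p x + ε * q x)) ^ 2 ≤ C)
    (hS : volume ({x | 0 < p x} ∩ ball x0 r) ≠ 0) : volume ({x | p x = 0} ∩ ball x0 r) = 0 := by
  obtain ⟨c, hc, hc'⟩ := hs (‖x0‖ + r)
  have hw := fun n : ℕ => od_locPos p0 q0 hs (pos_eps_pos n) (pos_eps_le n)
  have h1 := fun n : ℕ => (hp.add (hq.const_mul (1 / (n + 1)))).log (hw n)
  have h2 := (hp.add hq).log hs
  refine log_null (L := fun n x => Real.log (p x + 1 / (n + 1) * q x) - Real.log (p x + q x))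
    (C := c⁻¹ ^ 2 * C) hr (fun n => (h1 n).1.1.sub h2.1.1) (fun n => ?_) (hs.ae_pos.mono fun x hx h0 => ?_)
    (.of_forall fun x h0 => ⟨_, Tendsto.sub_const (c := Real.log (p x)) ?_ _⟩) hS
    (measurableSet_eq_fun mp measurable_const) (measurableSet_lt measurable_const mp)
  · obtain ⟨i1, i2⟩ := hC _ (pos_eps_pos n) (pos_eps_le n)
    refine le_trans ?_ (mul_le_mul_of_nonneg_left i2 (sq_nonneg _))
    rw [← integral_const_mul, ← integral_indicator measurableSet_ball]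
    refine integral_mono_of_nonneg (.of_forall fun x => indicator_nonneg
      (fun x _ => dot_self_nonneg _ x) x) (i1.const_mul _) ?_
    filter_upwards [ae_all_iff.2 fun i => (h1 n).1.1.wd_sub h2.1.1 i, ae_all_iff.2 (h1 n).2,
      ae_all_iff.2 h2.2, ae_all_iff.2 fun i => hp.1.wd_add (hq.const_mul (1 / (n + 1))).1 i,
      ae_all_iff.2 fun i => hq.1.wd_const_mul (1 / (n + 1)) i, ae_all_iff.2 fun i => hp.1.wd_add hq.1 i,
      ae_all_iff.2 hG, hc', (hw n).ae_pos] with x a1 a2 a3 a4 a5 a6 a7 a8 a9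
    by_cases hx : x ∈ ball x0 r
    · have b1 := a8 ((norm_le_insert' x x0).trans (add_le_add le_rfl (mem_ball_iff_norm.1 hx).le))
      have b2 := hc.trans_le b1
      have b3 := pos_eps_pos n
      have b4 := pos_eps_le n
      rw [indicator_of_mem hx, hχ x hx]
      simp only [dot, a1, a2, a3, a4, a5, a6, one_pow, one_mul, Finset.mul_sum]
      refine Finset.sum_le_sum fun i _ => ?_
      generalize (1 / (n + 1) : ℝ) = ε at *
      have e : (wd (eX i) p x + ε * wd (eX i) q x) / (p x + ε * q x) -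
          (wd (eX i) p x + wd (eX i) q x) / (p x + q x) = (1 - ε) * (p x + q x)⁻¹ *
            ((q x * wd (eX i) p x - p x * wd (eX i) q x) / (p x + ε * q x)) := by
        field_simp
        ring
      rw [e, ← pow_two, mul_pow, div_pow, div_pow, a7 i]
      refine mul_le_mul_of_nonneg_right (pow_le_pow_left₀ (mul_nonneg (by linarith) (by positivity))
        ?_ 2) (by positivity)
      exact (mul_le_of_le_one_left (by positivity) (by linarith)).trans (inv_anti₀ hc b1)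
    · rw [indicator_of_notMem hx]
      positivity
  · have h3 : p x = 0 := h0
    simp only [h3, zero_add] at hx ⊢
    have h4 : ∀ n : ℕ, Real.log (1 / (n + 1) * q x) - Real.log (q x) = Real.log (1 / (n + 1)) :=
      fun n => by rw [Real.log_mul (pos_eps_pos n).ne' hx.ne', add_sub_cancel_right]
    simp only [h4]
    exact Real.tendsto_log_nhdsGT_zero.comp
      (tendsto_nhdsWithin_iff.2 ⟨pos_eps, .of_forall pos_eps_pos⟩)
  · have h3 := (pos_eps.mul_const (q x)).const_add (p x)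
    rw [zero_mul, add_zero] at h3
    exact h3.log (ne_of_gt h0)

theorem od_ball {x : X} (hx : 0 < x 2) :
    ∀ᶠ n : ℕ in atTop, x ∈ ball (nuc (n + 1)) (n + 1 - 1 / (n + 2)) := by
  filter_upwards [tendsto_natCast_atTop_atTop.eventually_ge_atTop ((‖x‖ ^ 2 + 2) / x 2)] with n hn
  have h0 : (0 : ℝ) ≤ n := n.cast_nonneg
  have h1 : (1 : ℝ) / (n + 2) ≤ 1 / 2 := one_div_le_one_div_of_le two_pos (by linarith)
  have h2 : (n + 1 : ℝ) * (1 / (n + 2)) ≤ 1 := by
    rw [mul_one_div, div_le_one (by positivity)]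
    linarith
  rw [div_le_iff₀ hx] at hn
  rw [mem_ball_iff_norm]
  refine lt_of_pow_lt_pow_left₀ 2 (by linarith) ?_
  rw [← cov_sq, Fin.sum_univ_three] at hn ⊢
  simp only [nuc, PiLp.sub_apply, PiLp.single_apply, Fin.reduceEq, if_false, if_true, sub_zero]
  nlinarith [sq_nonneg (1 / (n + 2) : ℝ), sq_nonneg (x 0), sq_nonneg (x 1), sq_nonneg (x 2)]

theorem od_pos {p q : X → ℝ} {G : Fin 3 → X → ℝ} (hp : LH eX p) (hq : LH eX q) (mp : Measurable p)
    (p0 : ∀ x, 0 ≤ p x) (q0 : ∀ x, 0 ≤ q x) (hs : LocPos fun x => p x + q x)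
    (hG : ∀ i, ∀ᵐ x : X, (q x * wd (eX i) p x - p x * wd (eX i) q x) ^ 2 = G i x ^ 2)
    (he : ∀ x, p (rf x) = p x) (hn : ip p p ≠ 0)
    (hC : ∀ χ : X → ℝ, Tst χ → (∀ x, |χ x| ≤ 1) → (∀ x, x ∉ Hs → χ x = 0) → ∃ C : ℝ, ∀ ε : ℝ,
      0 < ε → ε ≤ 1 → (Integrable fun x => χ x ^ 2 * ∑ i, (G i x / (p x + ε * q x)) ^ 2) ∧
        ∫ x, χ x ^ 2 * ∑ i, (G i x / (p x + ε * q x)) ^ 2 ≤ C) : ∀ᵐ x : X, 0 < p x := by
  have h1 : ∀ n : ℕ, (∀ᵐ x : X, x ∈ ball (nuc (n + 1)) (n + 1 - 1 / (n + 2)) → p x = 0) ∨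
      ∀ᵐ x : X, x ∈ ball (nuc (n + 1)) (n + 1 - 1 / (n + 2)) → 0 < p x := fun n => by
    have h0 : (0 : ℝ) ≤ n := n.cast_nonneg
    have h1 : (1 : ℝ) / (n + 2) ≤ 1 / 2 := one_div_le_one_div_of_le two_pos (by linarith)
    obtain ⟨C0, -, h2⟩ := exists_radial_cutoff
    obtain ⟨χ, c1, c2, c3, c4, c5, -⟩ := h2 (nuc (n + 1)) (n + 1 - 1 / (n + 2)) (1 / (n + 2))
      (by linarith) (by positivity)
    obtain ⟨C, hC⟩ := hC χ ⟨c1.of_le one_le_two, c2⟩
      (fun x => abs_le.2 ⟨by linarith [(c3 x).1], (c3 x).2⟩) fun x hx => c5 x (by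
        have a1 : x 2 ≤ 0 := not_lt.1 hx
        have a2 := (abs_le.1 (PiLp.norm_apply_le (x - nuc (n + 1)) 2)).1
        simp only [nuc, PiLp.sub_apply, PiLp.single_apply, if_true] at a2
        simp only [nuc]
        linarith)
    by_cases hS : volume ({x | 0 < p x} ∩ ball (nuc (n + 1)) (n + 1 - 1 / (n + 2))) = 0
    · refine Or.inl ((measure_eq_zero_iff_ae_notMem.1 hS).mono fun x hx hb => ?_)
      exact le_antisymm (not_lt.1 fun h => hx ⟨h, hb⟩) (p0 x)
    · refine Or.inr ((measure_eq_zero_iff_ae_notMem.1 (od_log hp hq mp p0 q0 hs hG (by linarith)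
        (fun x hx => c4 x (mem_ball_iff_norm.1 hx).le) hC hS)).mono fun x hx hb => ?_)
      exact (p0 x).lt_of_ne fun h => hx ⟨h.symm, hb⟩
  rcases frequently_or_distrib.1 (Frequently.of_forall (f := atTop) h1) with h2 | h2
  · refine absurd (integral_eq_zero_of_ae (ae_of_half (p := fun x => p x * p x = 0) ?_
      (.of_forall fun x hx => by rwa [he] at hx))) hn
    obtain ⟨ns, hns, h3⟩ := extraction_of_frequently_atTop h2
    filter_upwards [ae_all_iff.2 h3] with x hx hz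
    obtain ⟨n, hn⟩ := (hns.tendsto_atTop.eventually (od_ball hz)).exists
    rw [hx n hn, mul_zero]
  · refine ae_of_half ?_ (.of_forall fun x hx => by rwa [he] at hx)
    obtain ⟨ns, hns, h3⟩ := extraction_of_frequently_atTop h2
    filter_upwards [ae_all_iff.2 h3] with x hx hz
    obtain ⟨n, hn⟩ := (hns.tendsto_atTop.eventually (od_ball hz)).exists
    exact hx n hn

theorem od_Jabs (hb : HL eX b) (i : Fin 3) :
    ∀ᵐ x : X, (|b x| * wd (eX i) P x - P x * wd (eX i) (fun x => |b x|) x) ^ 2 = J P b i x ^ 2 := by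
  filter_upwards [hb.abs.2 i, hb.wd_zero i] with x a1 a2
  rw [a1, J]
  rcases lt_trichotomy (b x) 0 with h | h | h
  · simp only [abs_of_neg h, sign_neg h, SignType.coe_neg_one]
    ring
  · simp [h, a2 h]
  · simp only [abs_of_pos h, sign_pos h, SignType.coe_one, one_mul]

theorem od_posP (h : Cert δ P b R) (hδ : 0 ≤ δ) (hR : LocPos R) (hM : ∀ᵐ x : X, |R x| ≤ M) :
    ∀ᵐ x : X, 0 < P x := by
  obtain ⟨hP, hb, -⟩ := h.lh hM
  refine od_pos hP (od_abs hb) h.mP h.P_nn (fun x => abs_nonneg _) (od_sum h hR) (od_Jabs hb.1)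
    h.P_even (by rw [h.nP]; norm_num) fun χ h1 h2 _ =>
      ⟨2 * (2 * δ + 1 / (1 / 2) * ∫ x, b x ^ 2 * dot eX χ χ x), fun ε h3 h4 => ?_⟩
  obtain ⟨h5, h6⟩ := od_A h hδ hR hM (.of_tst h1) h2 h3 h4 one_half_pos
  exact ⟨h5, by linarith⟩

theorem od_posb (h : Cert δ P b R) (hδ : 0 ≤ δ) (hR : LocPos R) (hM : ∀ᵐ x : X, |R x| ≤ M) :
    ∀ᵐ x : X, 0 < |b x| := by
  obtain ⟨hP, hb, -⟩ := h.lh hM
  refine od_pos (G := J P b) (od_abs hb) hP h.mb.abs (fun x => abs_nonneg _) h.P_nn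
    (by simpa only [add_comm] using od_sum h hR)
    (fun i => (od_Jabs (P := P) hb.1 i).mono fun x hx => by rw [← hx]; ring)
    (fun x => by rw [h.b_odd, abs_neg]) (by simp only [ip, abs_mul_abs_self]; exact h.nb.trans_ne one_ne_zero)
    fun χ h1 h2 h0 => ⟨2 * (1 / (1 / 2) * ∫ x, P x ^ 2 * dot eX χ χ x), fun ε h3 h4 => ?_⟩
  obtain ⟨h5, h6⟩ := od_B h hR hM (.of_tst h1) (.of_forall h0) h3 h4 one_half_pos
  have h7 : 0 ≤ ∫ x, |b x| / (|b x| + ε * P x) * (P x * χ x) ^ 2 := integral_nonneg fun x =>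
    mul_nonneg (div_nonneg (abs_nonneg _) (add_nonneg (abs_nonneg _) (mul_nonneg h3.le (h.P_nn x))))
      (sq_nonneg _)
  exact ⟨h5, by nlinarith [mul_nonneg hδ h7]⟩

theorem od_fatou {F : ℕ → X → ℝ} {f : X → ℝ} {a : ℕ → ℝ} {l : ℝ} (hF : ∀ n, Integrable (F n))
    (h0 : ∀ n x, 0 ≤ F n x) (ha : ∀ n, ∫ x, F n x ≤ a n) (hl : Tendsto a atTop (𝓝 l))
    (h : ∀ᵐ x : X, Tendsto (fun n => F n x) atTop (𝓝 (f x))) : Integrable f ∧ ∫ x, f x ≤ l := by
  have hm := aestronglyMeasurable_of_tendsto_ae atTop (fun n => (hF n).1) h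
  have f0 : ∀ᵐ x : X, 0 ≤ f x := h.mono fun x hx => ge_of_tendsto' hx fun n => h0 n x
  have l0 : 0 ≤ l := ge_of_tendsto' hl fun n => (integral_nonneg (h0 n)).trans (ha n)
  have h1 : ∫⁻ x, ENNReal.ofReal (f x) ≤ ENNReal.ofReal l := by
    have h2 : ∫⁻ x, ENNReal.ofReal (f x) = ∫⁻ x, liminf (fun n => ENNReal.ofReal (F n x)) atTop :=
      lintegral_congr_ae (h.mono fun x hx => (ENNReal.tendsto_ofReal hx).liminf_eq.symm)
    rw [h2, ← (ENNReal.tendsto_ofReal hl).liminf_eq]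
    refine (lintegral_liminf_le' fun n => (hF n).1.aemeasurable.ennreal_ofReal).trans
      (liminf_le_liminf (.of_forall fun n => ?_))
    rw [← ofReal_integral_eq_lintegral_ofReal (hF n) (.of_forall (h0 n))]
    exact ENNReal.ofReal_le_ofReal (ha n)
  have hi : Integrable f :=
    (lintegral_ofReal_ne_top_iff_integrable hm f0).1 (ne_top_of_le_ne_top ENNReal.ofReal_ne_top h1)
  rw [← ofReal_integral_eq_lintegral_ofReal hi f0] at h1
  exact ⟨hi, (ENNReal.ofReal_le_ofReal_iff l0).1 h1⟩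

theorem od_cut_one {χ : ℕ → X → ℝ} (h3 : ∀ (n : ℕ) x, ‖x‖ ≤ n → χ n x = 1) (x : X) :
    Tendsto (fun n => χ n x) atTop (𝓝 1) :=
  tendsto_const_nhds.congr' ((tendsto_natCast_atTop_atTop.eventually_ge_atTop ‖x‖).mono
    fun n hn => (h3 n x hn).symm)

theorem od_J (h : Cert δ P b R) (hδ : 0 ≤ δ) (hR : LocPos R) (hM : ∀ᵐ x : X, |R x| ≤ M) :
    (Integrable fun x => ∑ i, (J P b i x / P x) ^ 2) ∧ ∫ x, ∑ i, (J P b i x / P x) ^ 2 ≤ 2 * δ := by
  obtain ⟨χ, C, h1, h2, h3, h4⟩ := exists_cutoff (E := X)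
  have ht : ∀ n, Tst (χ n) := fun n => ⟨(h1 n).1.of_le one_le_two, (h1 n).2⟩
  have key := fun n : ℕ => od_A h hδ hR hM (.of_tst (ht n))
    (fun x => abs_le.2 ⟨by linarith [(h2 n x).1], (h2 n x).2⟩) (pos_eps_pos n) (pos_eps_le n)
    (pos_eps_pos n)
  refine od_fatou (F := fun n x => (1 - 1 / (n + 1)) *
      (χ n x ^ 2 * ∑ i, (J P b i x / (P x + 1 / (n + 1) * |b x|)) ^ 2))
    (a := fun n => 2 * δ + C ^ 2 * (1 / (n + 1))) (fun n => (key n).1.const_mul _)
    (fun n x => mul_nonneg (sub_nonneg.2 (pos_eps_le n)) (by positivity)) (fun n => ?_)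
    (by simpa using (pos_eps.const_mul (C ^ 2)).const_add (2 * δ))
    ((od_posP h hδ hR hM).mono fun x hx => ?_)
  · rw [integral_const_mul]
    refine (key n).2.trans (add_le_add le_rfl ?_)
    have h5 : ∫ x, b x ^ 2 * dot eX (χ n) (χ n) x ≤ ∫ x, (C / (n + 1)) ^ 2 * (b x * b x) := by
      refine integral_mono_of_nonneg (.of_forall fun x => mul_nonneg (sq_nonneg _)
        (dot_self_nonneg _ x)) ((h.hb.1.integrable_mul h.hb.1).const_mul _) ?_
      filter_upwards [ae_all_iff.2 fun i => wd_contDiff (ht n).1 (eX i)] with x hx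
      simp only [dot, hx, ← pow_two, sum_fderiv_sq]
      rw [mul_comm]
      exact mul_le_mul_of_nonneg_right (pow_le_pow_left₀ (norm_nonneg _) (h4 n x) 2) (sq_nonneg _)
    rw [integral_const_mul, show ∫ x, b x * b x = 1 from h.nb] at h5
    refine (mul_le_mul_of_nonneg_left h5 (by positivity)).trans (le_of_eq ?_)
    field_simp
  · have l1 := (pos_eps.mul_const |b x|).const_add (P x)
    rw [zero_mul, add_zero] at l1
    have l2 := (pos_eps.const_sub 1).mul (((od_cut_one h3 x).pow 2).mul (tendsto_finsetSum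
      Finset.univ fun i _ => ((tendsto_const_nhds (x := J P b i x)).div l1 hx.ne').pow 2))
    simpa using l2

theorem od_half (h : Cert δ P b R) (hδ : 0 ≤ δ) (hR : LocPos R) (hM : ∀ᵐ x : X, |R x| ≤ M)
    {ζ : X → ℝ} (hζ : H1 eX ζ) {k : ℝ} (hk : ∀ᵐ x : X, |ζ x| ≤ k) (h0 : ∀ x, x ∉ Hs → ζ x = 0) :
    2 * δ * ∫ x, (P x * ζ x) ^ 2 ≤ ∫ x, P x ^ 2 * dot eX ζ ζ x := by
  obtain ⟨χ, C, h1, h2, h3, h4⟩ := exists_cutoff (E := X)
  obtain ⟨hP, hb, hB, -⟩ := h.lh hM
  have ht : ∀ n, Tst (χ n) := fun n => ⟨(h1 n).1.of_le one_le_two, (h1 n).2⟩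
  have hl : ∀ n, LT eX fun x => χ n x * ζ x := fun n => by
    simpa only [mul_comm] using (hζ.lh hk).mul_LT (.of_tst (ht n))
  have hPζ : MemLp (fun x => P x * ζ x) 2 volume :=
    apx_memLp_mul hζ.1 h.hP.1.1 (hB.mono fun x hx => hx.1)
  have key := fun n : ℕ => (od_B h hR hM (hl n) (.of_forall fun x hx => by rw [h0 x hx, mul_zero])
    (pos_eps_pos n) (pos_eps_le n) one_pos).2
  simp only [sub_self, zero_mul, zero_add, div_one, one_mul] at key
  have hd : ∀ (n : ℕ) x i, |fderiv ℝ (χ n) x (eX i)| ≤ C / (n + 1) := fun n x i =>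
    ((fderiv ℝ (χ n) x).le_opNorm _).trans (by simpa [eX] using h4 n x)
  refine le_of_tendsto_of_tendsto' (b := atTop) (Tendsto.const_mul _ ?_) ?_ key
  · refine tendsto_integral_of_dominated_convergence _ (fun n => ?_) hPζ.integrable_sq
      (fun n => .of_forall fun x => ?_) ((od_posb h hδ hR hM).mono fun x hx => ?_)
    · have := h.mP
      have := h.mb
      have := (hl n).h1.1.1.aemeasurable
      exact AEMeasurable.aestronglyMeasurable (by fun_prop)
    · have a1 := mul_nonneg (pos_eps_pos n).le (h.P_nn x)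
      have a2 : 0 ≤ |b x| / (|b x| + 1 / (n + 1) * P x) := by positivity
      rw [Real.norm_of_nonneg (mul_nonneg a2 (sq_nonneg _)), mul_left_comm (P x), mul_pow, ← mul_assoc]
      exact mul_le_of_le_one_left (sq_nonneg _) (mul_le_one₀ (div_le_one_of_le₀
        (le_add_of_nonneg_right a1) (by positivity)) (sq_nonneg _) (pow_le_one₀ (h2 n x).1 (h2 n x).2))
    · have l1 := (pos_eps.mul_const (P x)).const_add |b x|
      rw [zero_mul, add_zero] at l1
      have l2 := ((tendsto_const_nhds (x := |b x|)).div l1 hx.ne').mul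
        ((((od_cut_one h3 x).mul_const (ζ x)).const_mul (P x)).pow 2)
      simpa [div_self hx.ne'] using l2
  · have e : ∀ᵐ x : X, ∀ n i, wd (eX i) (fun x => χ n x * ζ x) x =
        χ n x * wd (eX i) ζ x + fderiv ℝ (χ n) x (eX i) * ζ x :=
      ae_all_iff.2 fun n => ae_all_iff.2 (hζ.hl.mul_contDiff (ht n).1).2
    refine tendsto_integral_of_dominated_convergence
      (fun x => M ^ 2 * (2 * dot eX ζ ζ x + 6 * C ^ 2 * ζ x ^ 2))
      (fun n => (h.hP.1.1.pow 2).mul (measurable_dot _ _).aestronglyMeasurable)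
      ((((hζ.integrable_dot hζ).const_mul 2).add (hζ.1.integrable_sq.const_mul _)).const_mul _)
      (fun n => ?_) (e.mono fun x hx => ?_)
    · filter_upwards [e, hB] with x a1 a2
      rw [Real.norm_of_nonneg (mul_nonneg (sq_nonneg _) (dot_self_nonneg _ x))]
      refine mul_le_mul (sq_le_sq' (abs_le.1 a2.1).1 (abs_le.1 a2.1).2) ?_ (dot_self_nonneg _ x)
        (sq_nonneg _)
      have a3 : ∀ i, (χ n x * wd (eX i) ζ x + fderiv ℝ (χ n) x (eX i) * ζ x) *
          (χ n x * wd (eX i) ζ x + fderiv ℝ (χ n) x (eX i) * ζ x) ≤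
          2 * (wd (eX i) ζ x * wd (eX i) ζ x) + 2 * C ^ 2 * ζ x ^ 2 := fun i => by
        have b1 : |fderiv ℝ (χ n) x (eX i)| ≤ |C| := (hd n x i).trans ((div_le_div_of_nonneg_right
          (le_abs_self C) (by positivity)).trans (div_le_self (abs_nonneg _)
            (by linarith [n.cast_nonneg (α := ℝ)])))
        nlinarith [mul_le_mul_of_nonneg_right (sq_le_sq.2 b1) (sq_nonneg (ζ x)),
          mul_le_mul_of_nonneg_right (pow_le_one₀ (n := 2) (h2 n x).1 (h2 n x).2)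
            (sq_nonneg (wd (eX i) ζ x)),
          sq_nonneg (χ n x * wd (eX i) ζ x - fderiv ℝ (χ n) x (eX i) * ζ x)]
      simp only [dot, a1, Fin.sum_univ_three]
      linarith [a3 0, a3 1, a3 2]
    · simp only [dot, hx]
      refine Tendsto.const_mul _ (tendsto_finsetSum _ fun i _ => ?_)
      have l1 : Tendsto (fun n => fderiv ℝ (χ n) x (eX i)) atTop (𝓝 0) :=
        squeeze_zero_norm (fun n => (hd n x i).trans_eq (div_eq_mul_one_div _ _))
          (by simpa using pos_eps.const_mul C)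
      have l2 := ((od_cut_one h3 x).mul_const (wd (eX i) ζ x)).add (l1.mul_const (ζ x))
      rw [one_mul, zero_mul, add_zero] at l2
      exact l2.mul l2

theorem stOdd : StOdd := by
  intro δ P b R M h hδ hR hM
  obtain ⟨h1, h2⟩ := od_J h hδ hR hM
  refine ⟨od_posP h hδ hR hM, h1, by linarith, fun η hη ⟨k, hk⟩ ho => ?_⟩
  obtain ⟨-, -, hB, -⟩ := h.lh hM
  have hs := Strip.of_odd hη.hl ho
  have h3 := od_half h hδ hR hM (hη.indicator_Hs hs) (k := max k 0) (hk.mono fun x hx => by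
    by_cases hx' : x ∈ Hs
    · exact (indicator_of_mem hx' η).symm ▸ hx.trans (le_max_left _ _)
    · rw [indicator_of_notMem hx', abs_zero]
      exact le_max_right _ _) fun x hx => indicator_of_notMem hx η
  have hP2 : ∀ᵐ x : X, ‖P x ^ 2‖ ≤ M ^ 2 := hB.mono fun x hx => by
    rw [Real.norm_of_nonneg (sq_nonneg _)]
    exact sq_le_sq' (abs_le.1 hx.1).1 (abs_le.1 hx.1).2
  have hP3 : AEStronglyMeasurable (fun x => P x ^ 2) volume := h.hP.1.1.pow 2
  have e1 : ∫ x, P x ^ 2 * η x ^ 2 = 2 * ∫ x, (P x * Hs.indicator η x) ^ 2 := by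
    rw [integral_even (hη.1.integrable_sq.bdd_mul hP3 hP2)
      (ho.mono fun x hx => by simp only [hx, h.P_even, neg_sq]), ← integral_indicator measurableSet_Hs]
    congr 1
    refine integral_congr_ae (.of_forall fun x => ?_)
    by_cases hx : x ∈ Hs
    · simp only [indicator_of_mem hx, mul_pow]
    · simp [indicator_of_notMem hx]
  have e2 : ∫ x, P x ^ 2 * dot eX η η x =
      2 * ∫ x, P x ^ 2 * dot eX (Hs.indicator η) (Hs.indicator η) x := by
    have a1 : ∀ᵐ x : X, dot eX η η (rf x) = dot eX η η x := by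
      filter_upwards [sym_rf.dot hη.hl hη.hl, dot_congr (b := eX) ho ho,
        ae_all_iff.2 fun i => hη.hl.wd_neg i] with x a2 a3 a4
      rw [← a2, a3]
      simp only [dot, a4, neg_mul_neg]
    rw [integral_even ((hη.integrable_dot hη).bdd_mul hP3 hP2)
      (a1.mono fun x hx => by simp only [hx, h.P_even]), ← integral_indicator measurableSet_Hs]
    congr 1
    refine integral_congr_ae ((ae_all_iff.2 (hη.hl.indicator_Hs hs).2).mono fun x a2 => ?_)
    by_cases hx : x ∈ Hs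
    · simp only [dot, a2, indicator_of_mem hx]
    · simp [dot, a2, indicator_of_notMem hx]
  rw [e1, e2]
  linarith

end Crest.Agent.R335
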